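import Vale.Agent.P062.Game

/-! A verified checker for certificates made of cards (core, zone) stored as bit masks.
Bit `i` stands for the cell `(i % 32, i / 32)`. -/

namespace Vale.Agent.P062

def pt (i : ℕ) : ℤ × ℤ := (((i % 32 : ℕ) : ℤ), ((i / 32 : ℕ) : ℤ))

theorem pt_inj {i j : ℕ} (h : pt i = pt j) : i = j := by
  simp only [pt, Prod.mk.injEq] at h
  omega

/-- whenever Maker is to move, owns the image of the core `c` and Breaker owns nothing in the image
of the zone `z`, Maker wins within `n` moves played in the image of the zone -/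
def Valid (n c z : ℕ) : Prop :=
  ∀ g, Good g → ∀ M B : Set (ℤ × ℤ), (∀ i, c.testBit i = true → g (pt i) ∈ M) →
    (∀ i, z.testBit i = true → g (pt i) ∉ B) →
    Win {p | ∃ i, z.testBit i = true ∧ p = g (pt i)} n M B

def Sub (a b : ℕ) : Prop := ∀ i, a.testBit i = true → b.testBit i = true

theorem Valid.transfer {n n' c z c' z' : ℕ} (hv : Valid n c z) (hn : n ≤ n')
    {h : ℤ × ℤ → ℤ × ℤ} (hh : Good h) (φ : ℕ → ℕ)
    (hz : ∀ i, z.testBit i = true → pt (φ i) = h (pt i) ∧ z'.testBit (φ i) = true)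
    (hc : ∀ i, c.testBit i = true → z.testBit i = true ∧ c'.testBit (φ i) = true) :
    Valid n' c' z' := by
  intro g hg M B hM hB
  refine ((hv (g ∘ h) (hg.comp hh) M B (fun i hi => ?_) (fun i hi => ?_)).le hn).zone ?_
  · have := hM _ (hc i hi).2
    rwa [(hz i (hc i hi).1).1] at this
  · have := hB _ (hz i hi).2
    rwa [(hz i hi).1] at this
  · rintro p ⟨i, hi, rfl⟩
    exact ⟨φ i, (hz i hi).2, by rw [(hz i hi).1]; rfl⟩

theorem Valid.step {n c z m : ℕ} (hm : z.testBit m = true)
    (h0 : (c ||| 2 ^ m).testBit 1023 = false)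
    (h : ∀ i, (z ||| 2 ^ 1023).testBit i = true → (c ||| 2 ^ m).testBit i = false →
      ∃ y, Sub y z ∧ Valid n (c ||| 2 ^ m) y ∧ y.testBit i = false) :
    Valid (n + 1) c z := by
  intro g hg M B hM hB
  obtain ⟨y0, s0, v0, -⟩ := h 1023 (by rw [Nat.testBit_or, Nat.testBit_two_pow_self, Bool.or_true]) h0
  have hsub : ∀ y, Sub y z → {p | ∃ i, y.testBit i = true ∧ p = g (pt i)} ⊆
      {p | ∃ i, z.testBit i = true ∧ p = g (pt i)} := by
    rintro y hy p ⟨i, hi, rfl⟩
    exact ⟨i, hy i hi, rfl⟩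
  have hins : ∀ i, (c ||| 2 ^ m).testBit i = true → g (pt i) ∈ insert (g (pt m)) M := by
    intro i hi
    rw [Nat.testBit_or, Bool.or_eq_true, Nat.testBit_two_pow, decide_eq_true_eq] at hi
    rcases hi with hi | rfl
    · exact Or.inr (hM i hi)
    · exact Or.inl rfl
  by_cases hmM : g (pt m) ∈ M
  · refine ((v0 g hg M B (fun i hi => ?_) (fun i hi => hB i (s0 i hi))).zone (hsub _ s0)).succ
    rcases hins i hi with e | e
    · rwa [e]
    · exact e
  refine Or.inr ⟨g (pt m), ⟨m, hm, rfl⟩, hmM, hB m hm, fun b hb hbB => ?_⟩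
  have key : ∃ y, Sub y z ∧ Valid n (c ||| 2 ^ m) y ∧ ∀ k, y.testBit k = true → g (pt k) ≠ b := by
    by_cases hi : ∃ i, z.testBit i = true ∧ g (pt i) = b
    · obtain ⟨i, hi, rfl⟩ := hi
      obtain ⟨y, s, v, hy⟩ := h i (by rw [Nat.testBit_or, hi, Bool.true_or]) (by
        rw [← Bool.not_eq_true]
        exact fun e => hb (hins i e))
      refine ⟨y, s, v, fun k hk e => ?_⟩
      rw [pt_inj (hg.1 e), hy] at hk
      exact Bool.false_ne_true hk
    · exact ⟨y0, s0, v0, fun k hk e => hi ⟨k, s0 k hk, e⟩⟩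
  obtain ⟨y, s, v, hy⟩ := key
  refine (v g hg _ _ hins (fun i hi e => ?_)).zone (hsub _ s)
  rcases e with e | e
  · exact hy i hi e
  · exact hB i (s i hi) e

/-- the mask of Snaky itself -/
theorem valid_base {z : ℕ} : Valid 0 103079215119 z := by
  intro g hg M B hM _
  refine ⟨g '' snaky, hg.2 _ ⟨(0, 0), 1, 0, 0, 1, Or.inl (by decide), by simp⟩, ?_⟩
  rintro _ ⟨p, hp, rfl⟩
  rcases hp with rfl | rfl | rfl | rfl | rfl | rfl
  · exact hM 0 (by decide)
  · exact hM 1 (by decide)
  · exact hM 2 (by decide)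
  · exact hM 3 (by decide)
  · exact hM 35 (by decide)
  · exact hM 36 (by decide)

def sub (a b : ℕ) : Bool := Nat.beq (Nat.lor a b) b

theorem sub_sound {a b : ℕ} (h : sub a b = true) : Sub a b := by
  intro i hi
  have e : a ||| b = b := Nat.eq_of_beq_eq_true h
  rw [← e, Nat.testBit_or, hi, Bool.true_or]

def bit (a i : ℕ) : Bool := Nat.beq (Nat.land (Nat.shiftRight a i) 1) 1

theorem bit_eq (a i : ℕ) : bit a i = a.testBit i := by
  have e : bit a i = Nat.beq ((a >>> i) &&& 1) 1 := rfl
  rw [e, Nat.and_one_is_mod, Nat.shiftRight_eq_div_pow, Nat.testBit_eq_decide_div_mod_eq]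
  rcases Nat.mod_two_eq_zero_or_one (a / 2 ^ i) with h | h <;> rw [h] <;> rfl

/-- the mask of the 17 by 17 board -/
def box : ℕ := 0x1ffff0001ffff0001ffff0001ffff0001ffff0001ffff0001ffff0001ffff0001ffff0001ffff0001ffff0001ffff0001ffff0001ffff0001ffff0001ffff0001ffff

theorem box_bit {i : ℕ} (h : box.testBit i = true) : i % 32 ≤ 16 ∧ i / 32 ≤ 16 := by
  by_cases hi : i < 544
  · have : ∀ j < 544, box.testBit j = true → j % 32 ≤ 16 ∧ j / 32 ≤ 16 := by decide +kernel
    exact this i hi h
  · have h1 : box < 2 ^ 544 := by decide +kernel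
    rw [Nat.testBit_lt_two_pow (lt_of_lt_of_le h1 (Nat.pow_le_pow_right (by decide) (by omega)))] at h
    exact absurd h Bool.false_ne_true

theorem Valid.shift {n n' c z M d : ℕ} (hv : Valid n c z) (hn : n ≤ n') (hcz : Sub c z)
    (hb : Sub z box) (hd : d % 32 ≤ 15) (hM : Sub (c <<< d) M) : Valid n' M (z <<< d) := by
  refine hv.transfer hn (good_aff (d % 32 : ℕ) (d / 32 : ℕ) (a := 1) (b := 0) (c := 0) (d := 1)
    (Or.inl (by decide))) (fun i => i + d) (fun i hi => ⟨?_, ?_⟩) (fun i hi => ⟨hcz i hi, hM _ ?_⟩)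
  · have := box_bit (hb i hi)
    simp only [pt, aff, Prod.mk.injEq]
    omega
  · simp [Nat.testBit_shiftLeft, hi]
  · simp [Nat.testBit_shiftLeft, hi]

inductive Tr : Type
  | lf (r c z m : ℕ) (k : List ℕ) : Tr
  | nd (key : ℕ) (l r : Tr) : Tr

noncomputable def Tr.get (t : Tr) (i : ℕ) (k : ℕ → ℕ → ℕ → Bool) : Bool :=
  Tr.rec (motive := fun _ => Bool) (fun r c z _ _ => k r c z)
    (fun key _ _ a b => cond (Nat.ble key i) b a) t

def Tr.Has : Tr → ℕ → ℕ → ℕ → Prop
  | .lf r c z _ _, r', c', z' => r = r' ∧ c = c' ∧ z = z'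
  | .nd _ l r, r', c', z' => l.Has r' c' z' ∨ r.Has r' c' z'

theorem Tr.get_sound {t : Tr} {i : ℕ} {k : ℕ → ℕ → ℕ → Bool} (h : t.get i k = true) :
    ∃ r c z, t.Has r c z ∧ k r c z = true := by
  induction t with
  | lf r c z m l => exact ⟨r, c, z, ⟨rfl, rfl, rfl⟩, h⟩
  | nd key l r ihl ihr =>
    have e : (Tr.nd key l r).get i k = cond (Nat.ble key i) (r.get i k) (l.get i k) := rfl
    rw [e] at h
    cases hb : Nat.ble key i
    · rw [hb] at h
      obtain ⟨a, b, c, h1, h2⟩ := ihl h
      exact ⟨a, b, c, Or.inl h1, h2⟩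
    · rw [hb] at h
      obtain ⟨a, b, c, h1, h2⟩ := ihr h
      exact ⟨a, b, c, Or.inr h1, h2⟩

/-- a checked card of rank `r` -/
def Ok (r c z : ℕ) : Prop := Sub c z ∧ Sub z box ∧ Valid (r / 2) c z

noncomputable def stepLoop (root : Tr) (r M z : ℕ) (k : List ℕ) : ℕ → Bool :=
  List.rec (motive := fun _ => ℕ → Bool) (fun I => sub I M)
    (fun e _ ih I => root.get (Nat.div e 1024) fun r' c' z' =>
      and (Nat.ble (Nat.succ r') r) (and (Nat.ble (Nat.mod e 32) 15)
        (and (sub (Nat.shiftLeft c' (Nat.mod e 1024)) M)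
          (and (sub (Nat.shiftLeft z' (Nat.mod e 1024)) z)
            (ih (Nat.land I (Nat.shiftLeft z' (Nat.mod e 1024)))))))) k

theorem stepLoop_sound {root : Tr} {n M z : ℕ}
    (ih : ∀ r' c' z', r' < 2 * (n + 1) → root.Has r' c' z' → Ok r' c' z') {k : List ℕ} {I : ℕ}
    (h : stepLoop root (2 * (n + 1)) M z k I = true) (i : ℕ) (hi : I.testBit i = true)
    (hM : M.testBit i = false) : ∃ y, Sub y z ∧ Valid n M y ∧ y.testBit i = false := by
  induction k generalizing I with
  | nil =>
    rw [sub_sound h i hi] at hM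
    exact absurd hM (by decide)
  | cons e k ihk =>
    obtain ⟨r', c', z', h1, h2⟩ := Tr.get_sound h
    simp only [Bool.and_eq_true] at h2
    obtain ⟨a1, a2, a3, a4, a5⟩ := h2
    have b1 : r' + 1 ≤ 2 * (n + 1) := Nat.le_of_ble_eq_true a1
    have b2 : e % 32 ≤ 15 := Nat.le_of_ble_eq_true a2
    obtain ⟨o1, o2, o3⟩ := ih r' c' z' b1 h1
    cases hy : (z' <<< (e % 1024)).testBit i
    · exact ⟨_, sub_sound a4, o3.shift (d := e % 1024) (by omega) o1 o2 (by omega) (sub_sound a3), hy⟩
    · refine ihk a5 ?_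
      change (I &&& z' <<< (e % 1024)).testBit i = true
      rw [Nat.testBit_and, hi, hy]
      rfl

def fl (f : Bool) (a u : ℕ) : ℕ := cond f (Nat.sub a u) u

def gd (f : Bool) (a u : ℕ) : Bool := cond f (Nat.ble u a) true

def cellUV (fx fy : Bool) (a b c z : ℕ) (p : Bool) (u v : ℕ) : Bool :=
  and (gd fx a u) (and (gd fy b v) (and (Nat.ble (fl fx a u) 31)
    (and (bit z (Nat.add (fl fx a u) (Nat.mul 32 (fl fy b v))))
      (cond p (bit c (Nat.add (fl fx a u) (Nat.mul 32 (fl fy b v)))) true))))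

def cell (sw fx fy : Bool) (a b c z c' i : ℕ) : Bool :=
  cond sw (cellUV fx fy a b c z (bit c' i) (Nat.div i 32) (Nat.mod i 32))
    (cellUV fx fy a b c z (bit c' i) (Nat.mod i 32) (Nat.div i 32))

/-- lookup table for the position of the lowest set bit (only a hint, nothing is proved about it) -/
def lowTab : ℕ := 0x4411126d1270c9c5dd13099c45589d031785391469c277d9c54095704c9e1500d74d790b14f07515385a802028355f76e5c65ad0368558364148689f778554c80e811d48257a6042d3b5507ec1e235162fce2109a9700093fc29348d6805f86f5ba0d5c75796c505040e1a276559644da1cc1572a1b21ca01f1df1b056585335cc0f6d6053edd55be0a1817b659823182e510ee83951671fc3d81f41c8e299174b0c0488e30ec43191aa439c10900a695001482a37cd35a4d7772025fdf92f5be341bb5703663dc81e95f6cd6d65142669054a839431a3375da2ed5a1e1924a0db1d87461816621cb7b61c06088208a16287d129e07346d328577bd6224d348797452c10069b685e06228fc0c9d6211701760b28c6113d7c631972e1831fcc75202f131452acef78a0f2b95273d9d3a5fd1bcf73c820331087a48f164a7795187c52d4f0c159123848e42543c4704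44d8652c5ab8810f269c25d8255540b535a67d501048537482b070e001cd46e16a680d8865dd4c603821803b1fa230be105bf3f8d1801bc0d15d50037761901c9c92187b1ad605c9b43e96e17d95315438359b3d5062952b4843a18d0d08da4144de5a1db5f8bc33d5b638796c9936652942cdc2e87749c75615877b01720589125cc325ee24a1d52819858890c483170a21398b2dc7e51c4b2a9e12b5ce3a06e3c4cb7a058791f04ed638449446d352c21f265755514c7d0117441b019b767e184c2073ac8b100fd7fc334fdd71c4851a9713e45e3120c3d0a4480620885059d7d3398d6c598428b9499847ac80120c8245498543016c4d2d9462a4ac39cf079de34ea10468af261537cdd00159e4bcea0fdfe4f8701a4f830cf347c21598cd6c109495ea11c908505a2d4a8399e64e51925df20112e0f93d1a0c2479656bd2411a132d0e54e09600c3d19d1d6b8452cd37008666b4b2005ac00221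

def low (v : ℕ) : ℕ :=
  Nat.mod (Nat.shiftRight lowTab (Nat.mul 10 (Nat.mod (Nat.xor (Nat.succ v) v) 547))) 1024

noncomputable def force (x : ℕ) (k : ℕ → Bool) : Bool :=
  Nat.rec (motive := fun _ => Bool) (k 0) (fun j _ => k (Nat.succ j)) x

theorem force_eq (x : ℕ) (k : ℕ → Bool) : force x k = k x := by
  cases x <;> rfl

/-- checks `p` at every set bit -/
noncomputable def bits (p : ℕ → Bool) (fuel : ℕ) : ℕ → Bool :=
  Nat.rec (motive := fun _ => ℕ → Bool) (fun w => Nat.beq w 0)
    (fun _ ih w => Nat.rec (motive := fun _ => Bool) true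
      (fun v _ => force (low v) fun i =>
        and (p i) (ih (Nat.xor (Nat.succ v) (Nat.shiftLeft 1 i)))) w) fuel

theorem bits_sound {p : ℕ → Bool} {fuel w : ℕ} (h : bits p fuel w = true) (i : ℕ)
    (hi : w.testBit i = true) : p i = true := by
  induction fuel generalizing w with
  | zero =>
    have e : w = 0 := Nat.eq_of_beq_eq_true h
    simp [e] at hi
  | succ f ih =>
    cases w with
    | zero => simp at hi
    | succ v =>
      have e : bits p (f + 1) (v + 1) = force (low v) fun i =>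
          and (p i) (bits p f ((v + 1) ^^^ (1 <<< i))) := rfl
      rw [e, force_eq, Bool.and_eq_true] at h
      by_cases hl : low v = i
      · rw [← hl]
        exact h.1
      · refine ih h.2 ?_
        rw [Nat.testBit_xor, hi, Nat.one_shiftLeft, Nat.testBit_two_pow_of_ne hl]
        rfl

def tgt (sw fx fy : Bool) (a b i : ℕ) : ℕ :=
  fl fx a (cond sw (i / 32) (i % 32)) + 32 * fl fy b (cond sw (i % 32) (i / 32))

def sg (f : Bool) : ℤ := cond f (-1) 1

def symMap (sw fx fy : Bool) (a b : ℕ) : ℤ × ℤ → ℤ × ℤ :=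
  aff (cond fx a 0) (cond fy b 0) (cond sw 0 (sg fx)) (cond sw (sg fx) 0) (cond sw (sg fy) 0)
    (cond sw 0 (sg fy))

theorem good_symMap (sw fx fy : Bool) (a b : ℕ) : Good (symMap sw fx fy a b) := by
  apply good_aff
  unfold IsSignedPerm
  cases sw <;> cases fx <;> cases fy <;> decide

theorem cell_sound {sw fx fy : Bool} {a b c z c' i : ℕ} (h : cell sw fx fy a b c z c' i = true) :
    pt (tgt sw fx fy a b i) = symMap sw fx fy a b (pt i) ∧
      z.testBit (tgt sw fx fy a b i) = true ∧
      (c'.testBit i = true → c.testBit (tgt sw fx fy a b i) = true) := by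
  have e : cell sw fx fy a b c z c' i = and (gd fx a (cond sw (i / 32) (i % 32)))
      (and (gd fy b (cond sw (i % 32) (i / 32)))
        (and (Nat.ble (fl fx a (cond sw (i / 32) (i % 32))) 31)
          (and (bit z (tgt sw fx fy a b i))
            (cond (bit c' i) (bit c (tgt sw fx fy a b i)) true)))) := by
    cases sw <;> rfl
  rw [e] at h
  simp only [Bool.and_eq_true, bit_eq] at h
  obtain ⟨h1, h2, h3, h4, h5⟩ := h
  refine ⟨?_, h4, fun hc => by rwa [hc] at h5⟩
  cases sw <;> cases fx <;> cases fy <;>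
    simp only [gd, fl, cond_true, cond_false, Nat.ble_eq, Nat.sub_eq] at h1 h2 h3 <;>
    simp only [pt, tgt, symMap, aff, fl, sg, cond_true, cond_false, Nat.sub_eq, Prod.mk.injEq] <;>
    omega

noncomputable def symChk (root : Tr) (r c z m : ℕ) (sw fx fy : Bool) : Bool :=
  root.get (Nat.div m 8192) fun r' c' z' => and (Nat.ble (Nat.succ r') r)
    (bits (cell sw fx fy (Nat.mod (Nat.div m 8) 32) (Nat.mod (Nat.div m 256) 32) c z c') 400 z')

theorem symChk_sound {root : Tr} {r c z m : ℕ} {sw fx fy : Bool}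
    (ih : ∀ r' c' z', r' < r → root.Has r' c' z' → Ok r' c' z')
    (h : symChk root r c z m sw fx fy = true) : Valid (r / 2) c z := by
  obtain ⟨r', c', z', h1, h2⟩ := Tr.get_sound h
  rw [Bool.and_eq_true] at h2
  have b1 : r' + 1 ≤ r := Nat.le_of_ble_eq_true h2.1
  obtain ⟨o1, -, o3⟩ := ih r' c' z' b1 h1
  exact o3.transfer (by omega) (good_symMap sw fx fy _ _) (tgt sw fx fy _ _)
    (fun i hi => ⟨(cell_sound (bits_sound h2.2 i hi)).1, (cell_sound (bits_sound h2.2 i hi)).2.1⟩)
    (fun i hi => ⟨o1 i hi, (cell_sound (bits_sound h2.2 i (o1 i hi))).2.2 hi⟩)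

noncomputable def symSel (root : Tr) (r c z m : ℕ) : Bool :=
  cond (bit m 2)
    (cond (bit m 0) (cond (bit m 1) (symChk root r c z m true true true)
        (symChk root r c z m true true false))
      (cond (bit m 1) (symChk root r c z m true false true) (symChk root r c z m true false false)))
    (cond (bit m 0) (cond (bit m 1) (symChk root r c z m false true true)
        (symChk root r c z m false true false))
      (symChk root r c z m false false true))

noncomputable def chk (root : Tr) (r c z m : ℕ) (k : List ℕ) : Bool :=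
  and (sub c z) (and (sub z box)
    (cond (Nat.beq r 0) (Nat.beq c 103079215119)
      (cond (Nat.beq (Nat.mod r 2) 1) (symSel root r c z m)
        (and (bit z m) (stepLoop root r (Nat.lor c (Nat.shiftLeft 1 m)) z k
          (Nat.lor z (Nat.shiftLeft 1 1023)))))))

theorem chk_sound {root : Tr} {r c z m : ℕ} {k : List ℕ}
    (ih : ∀ r' c' z', r' < r → root.Has r' c' z' → Ok r' c' z')
    (h : chk root r c z m k = true) : Ok r c z := by
  unfold chk at h
  simp only [Bool.and_eq_true] at h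
  obtain ⟨h1, h2, h3⟩ := h
  have s1 := sub_sound h1
  have s2 := sub_sound h2
  refine ⟨s1, s2, ?_⟩
  cases h0 : Nat.beq r 0
  · rw [h0, cond_false] at h3
    cases hr : Nat.beq (Nat.mod r 2) 1
    · rw [hr, cond_false, Bool.and_eq_true, bit_eq] at h3
      have r0 : r ≠ 0 := Nat.ne_of_beq_eq_false h0
      have r1 : r % 2 ≠ 1 := Nat.ne_of_beq_eq_false hr
      obtain ⟨n, rfl⟩ : ∃ n, r = 2 * (n + 1) := ⟨r / 2 - 1, by omega⟩
      rw [show 2 * (n + 1) / 2 = n + 1 by omega]
      have e1 : Nat.lor c (Nat.shiftLeft 1 m) = c ||| 2 ^ m := by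
        rw [← Nat.one_shiftLeft]; rfl
      have e2 : Nat.lor z (Nat.shiftLeft 1 1023) = z ||| 2 ^ 1023 := by
        rw [← Nat.one_shiftLeft]; rfl
      rw [e1, e2] at h3
      refine Valid.step h3.1 ?_ (stepLoop_sound ih h3.2)
      rw [← Bool.not_eq_true, Nat.testBit_or, Bool.or_eq_true, Nat.testBit_two_pow,
        decide_eq_true_eq]
      rintro (e | rfl)
      · exact absurd (box_bit (s2 _ (s1 _ e))).2 (by decide)
      · exact absurd (box_bit (s2 _ h3.1)).2 (by decide)
    · rw [hr, cond_true] at h3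
      unfold symSel at h3
      cases b2 : bit m 2 <;> cases b0 : bit m 0 <;> cases b1 : bit m 1 <;>
        simp only [b2, b0, b1, cond_true, cond_false] at h3 <;> exact symChk_sound ih h3
  · rw [h0, cond_true] at h3
    rw [Nat.eq_of_beq_eq_true h0, Nat.eq_of_beq_eq_true h3]
    exact valid_base

noncomputable def Tr.all (root t : Tr) : Bool :=
  Tr.rec (motive := fun _ => Bool) (fun r c z m k => chk root r c z m k)
    (fun _ _ _ a b => and a b) t

theorem Tr.all_nd {root l r : Tr} {key : ℕ} (h1 : root.all l = true) (h2 : root.all r = true) :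
    root.all (.nd key l r) = true := by
  have e : root.all (.nd key l r) = and (root.all l) (root.all r) := rfl
  rw [e, h1, h2]
  rfl

theorem Tr.all_has {root t : Tr} (h : root.all t = true) {r c z : ℕ} (hh : t.Has r c z) :
    ∃ m k, chk root r c z m k = true := by
  induction t with
  | lf r c z m l =>
    obtain ⟨rfl, rfl, rfl⟩ := hh
    exact ⟨m, l, h⟩
  | nd key l r ihl ihr =>
    have e : root.all (.nd key l r) = and (root.all l) (root.all r) := rfl
    rw [e, Bool.and_eq_true] at h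
    exact hh.elim (ihl h.1) (ihr h.2)

theorem Tr.all_sound {root : Tr} (h : root.all root = true) (r : ℕ) :
    ∀ c z, root.Has r c z → Ok r c z := by
  induction r using Nat.strong_induction_on with
  | _ r ih =>
    intro c z hh
    obtain ⟨m, k, hk⟩ := Tr.all_has h hh
    exact chk_sound (fun r' c' z' hr => ih r' hr c' z') hk

/-- a checked certificate with a card of empty core gives a win on the empty board -/
theorem win_of_cert {root : Tr} (h : root.all root = true) {i n : ℕ}
    (h2 : root.get i (fun r c _ => and (Nat.beq r (2 * n)) (Nat.beq c 0)) = true) :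
    Win {p | 0 ≤ p.1 ∧ p.1 < 17 ∧ 0 ≤ p.2 ∧ p.2 < 17} n ∅ ∅ := by
  obtain ⟨r, c, z, h3, h4⟩ := Tr.get_sound h2
  rw [Bool.and_eq_true] at h4
  obtain ⟨-, o2, o3⟩ := Tr.all_sound h r c z h3
  rw [Nat.eq_of_beq_eq_true h4.1, Nat.eq_of_beq_eq_true h4.2,
    show 2 * n / 2 = n by omega] at o3
  refine (o3 id good_id ∅ ∅ (fun i hi => by simp at hi) (fun i _ => id)).zone ?_
  rintro p ⟨i, hi, rfl⟩
  have := box_bit (o2 i hi)
  simp only [pt, id, Set.mem_ofPred_eq]
  omega

end Vale.Agent.P062
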